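import Vale.Agent.P166.Haar2.GG.Ibp

/-!
Capped second differences and concentration give the identities for every monomial of the block
overlaps and the concentration of the diagonal overlaps.
-/

noncomputable section

open MeasureTheory ProbabilityTheory Filter
open scoped BigOperators Topology

namespace Vale.Agent.P166.Haar2.GG

open Vale.Agent.P157 (gam)
open Vale.Agent.P157.Parisi (Cube scale)
open Vale.Agent.P157.Parisi.Perturb (rav_first)
open Vale.Agent.P168.Limit (gw logZ gav rav gw_nonneg rav_add rav_const_mul)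

/-- The fluctuation bound with a named constant. -/
def FluctBound (C : ℝ) : Prop :=
  ∀ (Ω X : Type) [MeasurableSpace Ω] [Fintype X] [Nonempty X] (μ : Measure Ω)
    [IsProbabilityMeasure μ] (H O : Ω → X → ℝ) (b : Ω → ℝ),
    (∀ σ, Measurable fun ω => H ω σ) → (∀ σ, Measurable fun ω => O ω σ) → Integrable b μ →
    (∀ ω σ, |H ω σ| ≤ b ω ∧ |O ω σ| ≤ b ω) →
    ∀ (h M φ : ℝ), 0 < h → 0 ≤ φ →
      (∫ ω, logZ (fun σ => H ω σ + h * O ω σ) ∂μ) + (∫ ω, logZ (fun σ => H ω σ + -h * O ω σ) ∂μ) -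
          2 * (∫ ω, logZ (H ω) ∂μ) ≤ M →
      (∀ d ∈ ({0, h, -h} : Set ℝ), ∫ ω, |logZ (fun σ => H ω σ + d * O ω σ) -
          ∫ ω', logZ (fun σ => H ω' σ + d * O ω' σ) ∂μ| ∂μ ≤ φ) →
      ∫ ω, gav (H ω) (fun σ => |O ω σ - ∫ ω', gav (H ω') (O ω') ∂μ|) ∂μ ≤
        C * (1 + |M| + φ) / h

section Fixed

variable {N G L : ℕ} {P : Sys N G} {s : ℝ} {x : Fin L → ℝ} {B : RBase N}

/-- The mean absolute deviation of an observable. -/
def devObs (P : Sys N G) (s : ℝ) (x : Fin L → ℝ) (B : RBase N) (O : Dz G L B → Cube N → ℝ) : ℝ :=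
  ∫ z, gav (P.ham s x B z) (fun σ => |O z σ - ∫ z', gav (P.ham s x B z') (O z') ∂dzLaw G L B|)
    ∂dzLaw G L B

lemma fluct_apply {C₁ : ℝ} (hFl : FluctBound C₁) (hν : (N : ℝ) ≤ P.ν) {O : Dz G L B → Cube N → ℝ}
    (hO : ∀ σ, Measurable fun z => O z σ) {K₀ K₁ : ℝ} (h0 : 0 ≤ K₀) (h1 : 0 ≤ K₁)
    (hb : ∀ z σ, |O z σ| ≤ K₀ + K₁ * absJ z.2.1) {h M φ : ℝ} (hh : 0 < h) (hφ : 0 ≤ φ)
    (hM : (∫ z, logZ (fun σ => P.ham s x B z σ + h * O z σ) ∂dzLaw G L B) +
      (∫ z, logZ (fun σ => P.ham s x B z σ + -h * O z σ) ∂dzLaw G L B) -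
      2 * (∫ z, logZ (P.ham s x B z) ∂dzLaw G L B) ≤ M)
    (hdev : ∀ d ∈ ({0, h, -h} : Set ℝ), ∫ z, |logZ (fun σ => P.ham s x B z σ + d * O z σ) -
      ∫ z', logZ (fun σ => P.ham s x B z' σ + d * O z' σ) ∂dzLaw G L B| ∂dzLaw G L B ≤ φ) :
    devObs P s x B O ≤ C₁ * (1 + |M| + φ) / h := by
  set D := |B.bd + (N : ℝ) / 2 * (∑ i, |P.lam i|)| with hD
  set S := ∑ i, |x i| * |s * coef G i.val| with hS
  have hS0 : 0 ≤ S := Finset.sum_nonneg fun i _ => mul_nonneg (abs_nonneg _) (abs_nonneg _)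
  refine hFl (Dz G L B) (Cube N) (dzLaw G L B) (fun z => P.ham s x B z) O
    (fun z => (D + K₀) + (S + K₁) * absJ z.2.1) (measurable_ham P s x B) hO
    ((integrable_const _).add ((integrable_absJ B).const_mul _)) (fun z σ => ?_) h M φ hh hφ hM hdev
  have hJ : 0 ≤ absJ z.2.1 := Finset.sum_nonneg fun c _ => abs_nonneg _
  have hD0 : 0 ≤ D := abs_nonneg _
  rw [add_mul]
  refine ⟨?_, ?_⟩
  · have h2 := abs_ham_le P hν s x B z σ
    have := le_abs_self (B.bd + (N : ℝ) / 2 * ∑ i, |P.lam i|)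
    have := mul_nonneg h1 hJ
    linarith
  · have := hb z σ
    have := mul_nonneg hS0 hJ
    linarith

lemma abs_pow_sub_le {a b : ℝ} (ha : |a| ≤ 1) (hb : |b| ≤ 1) :
    ∀ k : ℕ, |a ^ k - b ^ k| ≤ k * |a - b|
  | 0 => by simp
  | k + 1 => by
    have h := abs_pow_sub_le ha hb k
    have e : a ^ (k + 1) - b ^ (k + 1) = a * (a ^ k - b ^ k) + (a - b) * b ^ k := by ring
    rw [e]
    refine (abs_add_le _ _).trans ?_
    rw [abs_mul, abs_mul, abs_pow, Nat.cast_add, Nat.cast_one, add_mul, one_mul]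
    exact add_le_add ((mul_le_of_le_one_left (abs_nonneg _) ha).trans h)
      (mul_le_of_le_one_right (abs_nonneg _) (pow_le_one₀ (abs_nonneg _) hb))

lemma abs_prod_pow_le {ι : Type*} [Fintype ι] {a : ι → ℝ} (ha : ∀ i, |a i| ≤ 1) (e : ι → ℕ) :
    |∏ i, a i ^ e i| ≤ 1 := by
  rw [Finset.abs_prod]
  exact Finset.prod_le_one (fun _ _ => abs_nonneg _) fun i _ => by
    rw [abs_pow]; exact pow_le_one₀ (abs_nonneg _) (ha i)

lemma abs_prod_pow_sub_le {ι : Type*} [Fintype ι] [DecidableEq ι] {a b : ι → ℝ}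
    (ha : ∀ i, |a i| ≤ 1) (hb : ∀ i, |b i| ≤ 1) (e : ι → ℕ) :
    |(∏ i, a i ^ e i) - ∏ i, b i ^ e i| ≤ ∑ i, (e i : ℝ) * |a i - b i| := by
  suffices H : ∀ S : Finset ι,
      |(∏ i ∈ S, a i ^ e i) - ∏ i ∈ S, b i ^ e i| ≤ ∑ i ∈ S, (e i : ℝ) * |a i - b i| from H _
  intro S
  induction S using Finset.induction with
  | empty => simp
  | insert i S hi ih =>
    rw [Finset.prod_insert hi, Finset.prod_insert hi, Finset.sum_insert hi]
    have e' : a i ^ e i * (∏ k ∈ S, a k ^ e k) - b i ^ e i * ∏ k ∈ S, b k ^ e k =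
        (a i ^ e i - b i ^ e i) * (∏ k ∈ S, a k ^ e k) +
          b i ^ e i * ((∏ k ∈ S, a k ^ e k) - ∏ k ∈ S, b k ^ e k) := by ring
    rw [e']
    refine (abs_add_le _ _).trans (add_le_add ?_ ?_)
    · rw [abs_mul]
      refine (mul_le_of_le_one_right (abs_nonneg _) ?_).trans (abs_pow_sub_le (ha i) (hb i) _)
      rw [Finset.abs_prod]
      exact Finset.prod_le_one (fun _ _ => abs_nonneg _) fun k _ => by
        rw [abs_pow]; exact pow_le_one₀ (abs_nonneg _) (ha k)
    · rw [abs_mul, abs_pow]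
      exact (mul_le_of_le_one_left (abs_nonneg _) (pow_le_one₀ (abs_nonneg _) (hb i))).trans ih

/-- The monomial of two replicas. -/
def mono (P : Sys N G) (e : Fin G → ℕ) (U : OG N) (σ τ : Cube N) : ℝ :=
  ∏ g, P.ov U g σ τ ^ e g

@[fun_prop]
lemma measurable_mono (e : Fin G → ℕ) (σ τ : Cube N) :
    Measurable fun U : OG N => mono P e U σ τ :=
  Finset.measurable_prod _ fun g _ => (measurable_ov P g σ τ).pow_const _

lemma abs_mono_le (hν : (N : ℝ) ≤ P.ν) (e : Fin G → ℕ) (U : OG N) (σ τ : Cube N) :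
    |mono P e U σ τ| ≤ 1 :=
  abs_prod_pow_le (fun g => abs_ov_le P hν U g σ τ) e

/-- The deviation of one diagonal overlap. -/
def selfDev (P : Sys N G) (s : ℝ) (x : Fin L → ℝ) (B : RBase N) (g : Fin G) : ℝ :=
  rmean P s x B 1 fun U σ =>
    |P.ov U g (σ 0) (σ 0) - rmean P s x B 1 fun U' σ' => P.ov U' g (σ' 0) (σ' 0)|

/-- A function of the first replica is decorrelated up to its deviation. -/
lemma abs_rmean_mul_sub {n : ℕ} {F : OG N → (Fin (n + 1) → Cube N) → ℝ} {C : ℝ} (hC : 0 ≤ C)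
    (hm : ∀ σ, Measurable fun U => F U σ) (hF : ∀ U σ, |F U σ| ≤ C) {V : OG N → Cube N → ℝ}
    {D : ℝ} (hVm : ∀ σ, Measurable fun U => V U σ) (hV : ∀ U σ, |V U σ| ≤ D) (c : ℝ) :
    |rmean P s x B (n + 1) (fun U σ => F U σ * V U (σ 0)) - c * rmean P s x B (n + 1) F| ≤
      C * rmean P s x B 1 (fun U σ => |V U (σ 0) - c|) := by
  have hD : 0 ≤ D ∨ IsEmpty (OG N × Cube N) := by
    by_cases h : IsEmpty (OG N × Cube N)
    · exact Or.inr h
    · obtain ⟨p⟩ := not_isEmpty_iff.1 h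
      exact Or.inl ((abs_nonneg _).trans (hV p.1 p.2))
  have i1 := integrable_rav (P := P) (s := s) (x := x) (B := B)
    (F := fun U σ => F U σ * V U (σ 0)) (C := C * D)
    (fun σ => (hm σ).mul (hVm _)) fun U σ => by
      rw [abs_mul]; exact mul_le_mul (hF U σ) (hV U _) (abs_nonneg _) hC
  have i2 := integrable_rav (P := P) (s := s) (x := x) (B := B) hm hF
  have i3 := integrable_rav (P := P) (s := s) (x := x) (B := B)
    (F := fun U (σ : Fin (n + 1) → Cube N) => |V U (σ 0) - c|) (C := D + |c|)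
    (fun σ => ((hVm _).sub_const c).abs) fun U σ => by
      rw [abs_abs]; exact (abs_sub _ _).trans (add_le_add (hV U _) le_rfl)
  rw [rmean, rmean, rmean, ← integral_const_mul, ← integral_sub i1 (i2.const_mul c),
    ← integral_const_mul C]
  refine (abs_integral_le_integral_abs).trans (le_trans
    (integral_mono_of_nonneg (ae_of_all _ fun z => abs_nonneg _) (i3.const_mul C)
      (ae_of_all _ fun z => ?_)) (le_of_eq ?_))
  · show |rav (n + 1) (P.ham s x B z) (fun σ => F z.1 σ * V z.1 (σ 0)) -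
        c * rav (n + 1) (P.ham s x B z) (F z.1)| ≤
      C * rav (n + 1) (P.ham s x B z) (fun σ => |V z.1 (σ 0) - c|)
    rw [← rav_const_mul, ← rav_const_mul]
    simp only [rav, ← Finset.sum_sub_distrib]
    refine (Finset.abs_sum_le_sum_abs _ _).trans (Finset.sum_le_sum fun σ _ => ?_)
    rw [← mul_sub, abs_mul, abs_of_nonneg (Finset.prod_nonneg fun l _ => gw_nonneg _ _)]
    refine mul_le_mul_of_nonneg_left ?_ (Finset.prod_nonneg fun l _ => gw_nonneg _ _)
    rw [show F z.1 σ * V z.1 (σ 0) - c * F z.1 σ = F z.1 σ * (V z.1 (σ 0) - c) by ring, abs_mul]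
    exact mul_le_mul_of_nonneg_right (hF _ _) (abs_nonneg _)
  · refine integral_congr_ae (ae_of_all _ fun z => ?_)
    simp only
    rw [rav_first n _ fun τ => |V z.1 τ - c|, rav_first 0 _ fun τ => |V z.1 τ - c|]

lemma rmean_one (hV : OG N → Cube N → ℝ) :
    rmean P s x B 1 (fun U σ => hV U (σ 0)) =
      ∫ z, gav (P.ham s x B z) (hV z.1) ∂dzLaw G L B := by
  simp only [rmean, rav_first]

lemma rmean_mono {m : ℕ} {F F' : OG N → (Fin m → Cube N) → ℝ} {C C' : ℝ}
    (hm : ∀ σ, Measurable fun U => F U σ) (hF : ∀ U σ, |F U σ| ≤ C)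
    (hm' : ∀ σ, Measurable fun U => F' U σ) (hF' : ∀ U σ, |F' U σ| ≤ C')
    (h : ∀ U σ, F U σ ≤ F' U σ) : rmean P s x B m F ≤ rmean P s x B m F' :=
  integral_mono (integrable_rav hm hF) (integrable_rav hm' hF') fun z =>
    Finset.sum_le_sum fun σ _ =>
      mul_le_mul_of_nonneg_left (h z.1 σ) (Finset.prod_nonneg fun l _ => gw_nonneg _ _)

lemma rmean_add_const {m : ℕ} {F : OG N → (Fin m → Cube N) → ℝ} {C : ℝ}
    (hm : ∀ σ, Measurable fun U => F U σ) (hF : ∀ U σ, |F U σ| ≤ C) (c : ℝ) :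
    rmean P s x B m (fun U σ => F U σ + c) = rmean P s x B m F + c := by
  simp only [rmean, rav_add, Vale.Agent.P168.Limit.rav_const]
  rw [integral_add (integrable_rav hm hF) (integrable_const c)]
  simp

/-- The diagonal monomial deviates at most like the diagonal overlaps. -/
lemma selfMono_le (hν : (N : ℝ) ≤ P.ν) (e : Fin G → ℕ) :
    rmean P s x B 1 (fun U σ =>
        |mono P e U (σ 0) (σ 0) - rmean P s x B 1 fun U' σ' => mono P e U' (σ' 0) (σ' 0)|) ≤
      2 * ∑ g, (e g : ℝ) * selfDev P s x B g := by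
  set m := fun g => rmean P s x B 1 fun U σ => P.ov U g (σ 0) (σ 0) with hm
  have hm1 : ∀ g, |m g| ≤ 1 := fun g => abs_rmean_le fun U σ => abs_ov_le P hν U g _ _
  set d := ∏ g, m g ^ e g with hd
  set c := rmean P s x B 1 fun U σ => mono P e U (σ 0) (σ 0) with hc
  have hd1 : |d| ≤ 1 := abs_prod_pow_le hm1 e
  have hsm : ∀ (g) (σ : Fin 1 → Cube N), Measurable fun U : OG N =>
      (e g : ℝ) * |P.ov U g (σ 0) (σ 0) - m g| :=
    fun g σ => (((measurable_ov P g _ _).sub_const _).abs).const_mul _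
  have hsb : ∀ g U (σ : Fin 1 → Cube N),
      |((e g : ℝ) * |P.ov U g (σ 0) (σ 0) - m g|)| ≤ (∑ g, (e g : ℝ)) * 2 := fun g U σ => by
    rw [abs_mul, Nat.abs_cast, abs_abs]
    have h2 := abs_sub (P.ov U g (σ 0) (σ 0)) (m g)
    have h3 := abs_ov_le P hν U g (σ 0) (σ 0)
    have h4 := hm1 g
    exact mul_le_mul (Finset.single_le_sum (f := fun g => (e g : ℝ)) (fun g _ => Nat.cast_nonneg _)
      (Finset.mem_univ g)) (by linarith) (abs_nonneg _)
      (Finset.sum_nonneg fun g _ => Nat.cast_nonneg _)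
  have hmd : ∀ (r : ℝ) (σ : Fin 1 → Cube N),
      Measurable fun U : OG N => |mono P e U (σ 0) (σ 0) - r| :=
    fun r σ => ((measurable_mono e _ _).sub_const r).abs
  have hmb : ∀ r : ℝ, |r| ≤ 1 → ∀ U (σ : Fin 1 → Cube N),
      |(|mono P e U (σ 0) (σ 0) - r|)| ≤ 2 := fun r hr U σ => by
    have h2 := abs_sub (mono P e U (σ 0) (σ 0)) r
    have h3 := abs_mono_le hν e U (σ 0) (σ 0)
    rw [abs_abs]
    linarith
  have hE : rmean P s x B 1 (fun U σ => |mono P e U (σ 0) (σ 0) - d|) ≤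
      ∑ g, (e g : ℝ) * selfDev P s x B g := by
    have e1 : ∑ g, (e g : ℝ) * selfDev P s x B g =
        rmean P s x B 1 fun U σ => ∑ g, (e g : ℝ) * |P.ov U g (σ 0) (σ 0) - m g| := by
      rw [rmean_sum _ hsm hsb]
      simp only [rmean_const_mul]
      rfl
    rw [e1]
    exact rmean_mono (hmd d) (hmb d hd1)
      (fun σ => Finset.measurable_sum _ fun g _ => hsm g σ)
      (fun U σ => (Finset.abs_sum_le_sum_abs _ _).trans (Finset.sum_le_sum fun g _ => hsb g U σ))
      fun U σ => abs_prod_pow_sub_le (fun g => abs_ov_le P hν U g _ _) hm1 e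
  have hcd : |c - d| ≤ rmean P s x B 1 (fun U σ => |mono P e U (σ 0) (σ 0) - d|) := by
    have h := abs_rmean_mul_sub (P := P) (s := s) (x := x) (B := B) (n := 0)
      (F := fun _ _ => (1 : ℝ)) (C := 1) zero_le_one (fun _ => measurable_const)
      (fun _ _ => by simp) (V := fun U τ => mono P e U τ τ) (D := 1)
      (fun τ => measurable_mono e τ τ) (fun U τ => abs_mono_le hν e U τ τ) d
    simp only [one_mul] at h
    have h1 : rmean P s x B 1 (fun _ _ => (1 : ℝ)) = 1 := by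
      simp [rmean, Vale.Agent.P168.Limit.rav_const]
    rw [h1, mul_one] at h
    exact h
  have hc1 : |c| ≤ 1 := abs_rmean_le fun U σ => abs_mono_le hν e U _ _
  have hfin : rmean P s x B 1 (fun U σ => |mono P e U (σ 0) (σ 0) - c|) ≤
      rmean P s x B 1 (fun U σ => |mono P e U (σ 0) (σ 0) - d|) + |c - d| := by
    rw [← rmean_add_const (hmd d) (hmb d hd1)]
    refine rmean_mono (hmd c) (hmb c hc1) (fun σ => (hmd d σ).add_const _) (C' := 2 + |c - d|)
      (fun U σ => (abs_add_le _ _).trans (add_le_add (hmb d hd1 U σ) (abs_abs _).le)) fun U σ => ?_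
    rw [abs_sub_comm c d]
    exact abs_sub_le _ _ _
  linarith

/-- The identity up to the fluctuation of the observable and the diagonal deviations. -/
theorem identity_le (hν : (N : ℝ) ≤ P.ν) (hs : 0 < s) (i : Fin L) (hx : 1 ≤ x i) (n : ℕ)
    {F : OG N → (Fin (n + 1) → Cube N) → ℝ} {C : ℝ} (hC : 0 ≤ C)
    (hm : ∀ σ, Measurable fun U => F U σ) (hF : ∀ U σ, |F U σ| ≤ C) :
    |((n : ℝ) + 1) * rmean P s x B (n + 2) (fun U σ => F U (fun l => σ l.castSucc) *
          mono P (mexp G i.val) U (σ 0) (σ (Fin.last (n + 1)))) -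
      (rmean P s x B (n + 1) F *
          rmean P s x B 2 (fun U σ => mono P (mexp G i.val) U (σ 0) (σ 1)) +
        ∑ l : Fin n, rmean P s x B (n + 1)
          fun U σ => F U σ * mono P (mexp G i.val) U (σ 0) (σ l.succ))| ≤
      C * devObs P s x B (fun z σ => obsX P s i z.1 z.2.1 σ) / (s ^ 2 * coef G i.val ^ 2) +
        C * (2 * ∑ g, (mexp G i.val g : ℝ) * selfDev P s x B g) := by
  set e := mexp G i.val
  set κ := s ^ 2 * coef G i.val ^ 2 * x i with hκ
  have hcp := coef_pos G i.val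
  have hκ0 : 0 < κ := by positivity
  have hκle : s ^ 2 * coef G i.val ^ 2 ≤ κ := le_mul_of_one_le_right (by positivity) hx
  set m := ∫ z, gav (P.ham s x B z) (obsX P s i z.1 z.2.1) ∂dzLaw G L B with hmdef
  set EF := rmean P s x B (n + 1) F
  have hO : ∀ σ, Measurable fun z : Dz G L B => obsX P s i z.1 z.2.1 σ := fun σ => by
    simp only [obsX]; fun_prop
  have hgw := measurable_gw P s x B
  have iR : Integrable (fun z : Dz G L B => gav (P.ham s x B z)
      fun σ => |obsX P s i z.1 z.2.1 σ - m|) (dzLaw G L B) := by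
    refine (((integrable_absJ B).const_mul |s * coef G i.val|).add (integrable_const |m|)).mono'
      (Finset.measurable_sum _ fun σ _ => (hgw σ).mul ((hO σ).sub_const m).abs).aestronglyMeasurable
      (ae_of_all _ fun z => ?_)
    rw [Real.norm_eq_abs]
    refine Vale.Agent.P168.Limit.abs_gav_le_of_le _ fun σ => ?_
    rw [abs_abs]
    exact (abs_sub _ _).trans (add_le_add (abs_obsX_le P hν s i _ _ σ) le_rfl)
  have iL : Integrable (fun z : Dz G L B => rav (n + 1) (P.ham s x B z)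
      fun σ => F z.1 σ * obsX P s i z.1 z.2.1 (σ 0)) (dzLaw G L B) := by
    refine (((integrable_absJ B).const_mul |s * coef G i.val|).const_mul C).mono'
      (measurable_rav P s x B fun σ => ((hm σ).comp measurable_fst).mul (hO _)).aestronglyMeasurable
      (ae_of_all _ fun z => ?_)
    rw [Real.norm_eq_abs]
    refine Vale.Agent.P168.Limit.abs_rav_le _ _ _ fun σ => ?_
    rw [abs_mul]
    exact mul_le_mul (hF _ _) (abs_obsX_le P hν s i _ _ _) (abs_nonneg _) hC
  have key : |(∫ z, rav (n + 1) (P.ham s x B z) (fun σ => F z.1 σ * obsX P s i z.1 z.2.1 (σ 0))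
      ∂dzLaw G L B) - m * EF| ≤ C * devObs P s x B (fun z σ => obsX P s i z.1 z.2.1 σ) := by
    have i2 := integrable_rav (P := P) (s := s) (x := x) (B := B) hm hF
    simp only [EF, rmean, devObs]
    rw [← integral_const_mul, ← integral_sub iL (i2.const_mul m), ← integral_const_mul]
    refine abs_integral_le_integral_abs.trans (integral_mono_of_nonneg
      (ae_of_all _ fun z => abs_nonneg _) (iR.const_mul C) (ae_of_all _ fun z => ?_))
    simp only
    rw [← rav_first n (P.ham s x B z) fun σ => |obsX P s i z.1 z.2.1 σ - m|, ← rav_const_mul,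
      ← rav_const_mul]
    simp only [rav, ← Finset.sum_sub_distrib]
    refine (Finset.abs_sum_le_sum_abs _ _).trans (Finset.sum_le_sum fun σ _ => ?_)
    rw [← mul_sub, abs_mul, abs_of_nonneg (Finset.prod_nonneg fun l _ => gw_nonneg _ _)]
    refine mul_le_mul_of_nonneg_left ?_ (Finset.prod_nonneg fun l _ => gw_nonneg _ _)
    rw [show F z.1 σ * obsX P s i z.1 z.2.1 (σ 0) - m * F z.1 σ =
      F z.1 σ * (obsX P s i z.1 z.2.1 (σ 0) - m) by ring, abs_mul]
    exact mul_le_mul_of_nonneg_right (hF _ _) (abs_nonneg _)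
  set D0 := rmean P s x B (n + 1) (fun U σ => F U σ * mono P e U (σ 0) (σ 0)) with hD0
  set S1 := ∑ l : Fin n, rmean P s x B (n + 1) fun U σ => F U σ * mono P e U (σ 0) (σ l.succ)
  set T := rmean P s x B (n + 2) (fun U σ => F U (fun l => σ l.castSucc) *
    mono P e U (σ 0) (σ (Fin.last (n + 1))))
  set c := rmean P s x B 1 (fun U σ => mono P e U (σ 0) (σ 0)) with hc
  set R := rmean P s x B 2 (fun U σ => mono P e U (σ 0) (σ 1))
  rw [hmdef, mean_obs hν i, ibp_obs hν i n hm hF] at key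
  change |κ * (D0 + S1 - ((n : ℝ) + 1) * T) - κ * (c - R) * EF| ≤ _ at key
  have hself : |D0 - c * EF| ≤ C * (2 * ∑ g, (e g : ℝ) * selfDev P s x B g) :=
    (abs_rmean_mul_sub hC hm hF (V := fun U τ => mono P e U τ τ) (D := 1)
      (fun τ => measurable_mono e τ τ) (fun U τ => abs_mono_le hν e U τ τ) c).trans
      (mul_le_mul_of_nonneg_left (selfMono_le hν e) hC)
  have h0 : 0 ≤ C * devObs P s x B (fun z σ => obsX P s i z.1 z.2.1 σ) :=
    (abs_nonneg _).trans key
  have hdiv : |(D0 + S1 - ((n : ℝ) + 1) * T) - (c - R) * EF| ≤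
      C * devObs P s x B (fun z σ => obsX P s i z.1 z.2.1 σ) / (s ^ 2 * coef G i.val ^ 2) := by
    refine le_trans ?_ (div_le_div_of_nonneg_left h0 (by positivity) hκle)
    rw [le_div_iff₀' hκ0]
    refine le_trans (le_of_eq ?_) key
    rw [← abs_of_pos hκ0, ← abs_mul, abs_of_pos hκ0]
    ring_nf
  have := abs_le.1 hdiv
  have := abs_le.1 hself
  rw [abs_le]
  constructor <;> linarith

end Fixed

/-! ### The rates -/

lemma devRate_le {N : ℕ} (hN : 0 < N) :
    0 ≤ devRate N ∧ 1 + devRate N ≤ 8 * (N : ℝ) ^ (17 / 32 : ℝ) := by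
  have hN1 : (1 : ℝ) ≤ N := by exact_mod_cast hN
  have hN0 : (0 : ℝ) < N := by linarith
  have hlog0 := Real.log_nonneg hN1
  have hs : scale N ≤ (N : ℝ) ^ (17 / 32 : ℝ) :=
    Real.rpow_le_rpow_of_exponent_le hN1 (by norm_num)
  have h1 : (1 : ℝ) ≤ (N : ℝ) ^ (17 / 32 : ℝ) := Real.one_le_rpow hN1 (by norm_num)
  have h2 : Real.sqrt (N * (1 + Real.log N)) ≤ 5 * (N : ℝ) ^ (17 / 32 : ℝ) := by
    rw [Real.sqrt_le_iff]
    refine ⟨by positivity, ?_⟩
    have e : ((N : ℝ) ^ (17 / 32 : ℝ)) ^ 2 = N * (N : ℝ) ^ (1 / 16 : ℝ) := by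
      rw [← Real.rpow_natCast, ← Real.rpow_mul hN0.le]
      nth_rewrite 2 [← Real.rpow_one (N : ℝ)]
      rw [← Real.rpow_add hN0]
      norm_num
    have hl := Real.log_le_rpow_div hN0.le (by norm_num : (0 : ℝ) < 1 / 16)
    have h16 : (1 : ℝ) ≤ (N : ℝ) ^ (1 / 16 : ℝ) := Real.one_le_rpow hN1 (by norm_num)
    rw [mul_pow, e]
    nlinarith
  have hs0 : 0 ≤ scale N := Real.rpow_nonneg hN0.le _
  have := Real.sqrt_nonneg ((N : ℝ) * (1 + Real.log N))
  unfold devRate
  constructor <;> linarith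

lemma rate_le {N : ℕ} (hN : 0 < N) {D a : ℝ} (ha : a = (N : ℝ) ^ (3 / 4 : ℝ) ∨ a = eta N * N)
    (hD : 0 ≤ D) :
    (1 + D * (1 + a * diffStep N ^ 2) + D * devRate N) / (diffStep N * a) ≤
      (1 + D) * (10 * (N : ℝ) ^ (-(1 / 16) : ℝ)) := by
  have hN1 : (1 : ℝ) ≤ N := by exact_mod_cast hN
  have hN0 : (0 : ℝ) < N := by linarith
  obtain ⟨p, hp, hap⟩ : ∃ p : ℝ, 3 / 4 ≤ p ∧ a = (N : ℝ) ^ p := by
    rcases ha with h | h
    · exact ⟨3 / 4, le_rfl, h⟩
    · refine ⟨-(1 / 8) + 1, by norm_num, ?_⟩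
      rw [h, eta, Real.rpow_add hN0, Real.rpow_one]
  set h := diffStep N with hh
  set w := (N : ℝ) ^ (-(1 / 16) : ℝ) with hw
  have hhw : h = w := rfl
  have ha0 : 0 < a := hap ▸ Real.rpow_pos_of_pos hN0 p
  have hh0 : 0 < h := Real.rpow_pos_of_pos hN0 _
  obtain ⟨hd0, hd⟩ := devRate_le hN
  have key : (1 + devRate N) / (h * a) ≤ 8 * w := by
    rw [div_le_iff₀ (by positivity)]
    refine hd.trans ?_
    rw [hhw, hap, hw, mul_assoc, ← Real.rpow_add hN0, ← Real.rpow_add hN0]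
    exact mul_le_mul_of_nonneg_left (Real.rpow_le_rpow_of_exponent_le hN1 (by linarith))
      (by norm_num)
  have e : (1 + D * (1 + a * h ^ 2) + D * devRate N) / (h * a) =
      1 / (h * a) + D * h + D * ((1 + devRate N) / (h * a)) := by field_simp; ring
  have h1 : 1 / (h * a) ≤ (1 + devRate N) / (h * a) := by gcongr; linarith
  rw [e]
  have := mul_le_mul_of_nonneg_left key hD
  have hw0 : 0 ≤ w := Real.rpow_nonneg hN0.le _
  rw [hhw]
  rw [hhw] at key h1 this
  nlinarith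

/-- The rates vanish. -/
lemma tendsto_rate {f : ℕ → ℕ} (hf : Tendsto f atTop atTop) (c : ℝ) :
    Tendsto (fun j => c * (10 * (f j : ℝ) ^ (-(1 / 16) : ℝ))) atTop (𝓝 0) := by
  have h := (tendsto_rpow_neg_atTop (by norm_num : (0 : ℝ) < 1 / 16)).comp
    ((tendsto_natCast_atTop_atTop (R := ℝ)).comp hf)
  simpa using (h.const_mul 10).const_mul c

/-! ### The identities -/

lemma mexp_encode {G : ℕ} (e : Fin G → ℕ) : mexp G (Encodable.encode e) = e := by
  simp [mexp, Encodable.encodek]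

lemma exists_bound {G n : ℕ} {F : (Fin G → Fin n → Fin n → ℝ) → ℝ} (hF : Continuous F) :
    ∃ C, 0 ≤ C ∧ ∀ R, (∀ g a b, |R g a b| ≤ 1) → |F R| ≤ C := by
  have hK : IsCompact (Set.univ.pi fun _ : Fin G => Set.univ.pi fun _ : Fin n =>
      Set.univ.pi fun _ : Fin n => Set.Icc (-1 : ℝ) 1) :=
    isCompact_univ_pi fun _ => isCompact_univ_pi fun _ => isCompact_univ_pi fun _ => isCompact_Icc
  obtain ⟨C, hC⟩ := hK.exists_bound_of_continuousOn hF.continuousOn
  exact ⟨max C 0, le_max_right _ _, fun R hR => le_trans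
    (hC R fun g _ a _ b _ => ⟨(abs_le.1 (hR g a b)).1, (abs_le.1 (hR g a b)).2⟩) (le_max_left _ _)⟩

variable {K : ℕ} {Q : SysSeq K} {A : Atoms K} {C C₁ : ℝ}

/-- The energy when one atom moves. -/
lemma ham_atom {N L : ℕ} (hN : 0 < N) (a : Fin (K + 1) → ℝ) (w : Fin N → Fin (K + 1)) (s : ℝ)
    (x : Fin L → ℝ) (B : RBase N) (k : Fin (K + 1)) (η d : ℝ) (z : Dz (K + 2) L B) (σ : Cube N) :
    (stdSys (Function.update a k (a k + η * d)) w).ham s x B z σ =
      (stdSys a w).ham s x B z σ + d * (η * N / 2 * (stdSys a w).ov z.1 k.succ σ σ) := by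
  have hNne : (N : ℝ) ≠ 0 := by exact_mod_cast hN.ne'
  have e : ∑ i, Function.update a k (a k + η * d) (w i) * rot z.1 σ i ^ 2 =
      (∑ i, a (w i) * rot z.1 σ i ^ 2) +
        η * d * ∑ i ∈ Finset.univ.filter (fun i => w i = k), rot z.1 σ i * rot z.1 σ i := by
    rw [Finset.sum_filter, Finset.mul_sum, ← Finset.sum_add_distrib]
    refine Finset.sum_congr rfl fun i _ => ?_
    by_cases h : w i = k
    · rw [h, Function.update_self, if_pos rfl]; ring
    · rw [Function.update_of_ne h, if_neg h]; ring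
  have hp : (stdSys (Function.update a k (a k + η * d)) w).pert s x z.1 z.2.1 σ =
      (stdSys a w).pert s x z.1 z.2.1 σ := rfl
  simp only [Sys.ham, Sys.ham0, hp]
  simp only [Sys.ov, stdSys, Fin.cons_succ, e]
  field_simp
  ring

lemma selfDev_zero {N L : ℕ} (hN : 0 < N) (a : Fin (K + 1) → ℝ) (w : Fin N → Fin (K + 1)) (s : ℝ)
    (x : Fin L → ℝ) (B : RBase N) : selfDev (stdSys a w) s x B 0 = 0 := by
  have hNne : (N : ℝ) ≠ 0 := by exact_mod_cast hN.ne'
  have e : ∀ U σ, (stdSys a w).ov U 0 σ σ = 1 := fun U σ => by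
    simp only [Sys.ov, stdSys, Fin.cons_zero, ← pow_two, sum_rot_sq, div_self hNne]
  simp [selfDev, e, rmean, Vale.Agent.P168.Limit.rav_const]

theorem self_tendsto (hFl : FluctBound C₁) (hStd : Q.Std A) (hCap : Q.Capped C) (g : Fin (K + 2)) :
    Tendsto (fun j => selfDev (Q.sys j) (scale (Q.N j)) (Q.x j) (Q.B j) g) atTop (𝓝 0) := by
  induction g using Fin.cases with
  | zero =>
    simp only [SysSeq.sys, selfDev_zero (hStd.pos _)]
    exact tendsto_const_nhds
  | succ k =>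
    refine squeeze_zero_norm (fun j => ?_) (tendsto_rate hStd.size (2 * |C₁| * (1 + |C|)))
    set N := Q.N j with hNdef
    have hN : 0 < N := hStd.pos j
    have hN0 : (0 : ℝ) < N := Nat.cast_pos.2 hN
    set P := Q.sys j with hP
    set s := scale N
    set ηN := eta N * N / 2 with hηN
    have hη : 0 < eta N := Real.rpow_pos_of_pos hN0 _
    have hηN0 : 0 < ηN := by positivity
    have hh : 0 < diffStep N := Real.rpow_pos_of_pos hN0 _
    have hov : ∀ U σ, |P.ov U k.succ σ σ| ≤ 1 := fun U σ => abs_ov_le P le_rfl U _ σ σ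
    obtain ⟨hd0, -⟩ := devRate_le hN
    have hfree : ∀ d, Q.freeAt j (Function.update (Q.a j) k (Q.a j k + eta N * d)) (Q.x j) =
        ∫ z, logZ (fun σ => P.ham s (Q.x j) (Q.B j) z σ + d * (ηN * P.ov z.1 k.succ σ σ))
          ∂dzLaw (K + 2) N (Q.B j) := fun d =>
      integral_congr_ae (ae_of_all _ fun z => congrArg logZ
        (funext fun σ => ham_atom hN (Q.a j) (Q.w j) s (Q.x j) (Q.B j) k (eta N) d z σ))
    have hfl := fluct_apply hFl (P := P) (s := s) (x := Q.x j) (B := Q.B j) le_rfl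
      (O := fun z σ => ηN * P.ov z.1 k.succ σ σ)
      (fun σ => ((measurable_ov P _ σ σ).comp measurable_fst).const_mul _) (K₀ := ηN) (K₁ := 0)
      hηN0.le le_rfl (fun z σ => by
        rw [abs_mul, abs_of_pos hηN0, zero_mul, add_zero]
        exact mul_le_of_le_one_right hηN0.le (hov _ _))
      (h := diffStep N) (M := C * (1 + eta N * N * diffStep N ^ 2)) (φ := |C| * devRate N)
      hh (mul_nonneg (abs_nonneg _) hd0)
      (by
        have h := hCap.capA j k
        rw [hfree, sub_eq_add_neg (Q.a j k), ← mul_neg, hfree] at h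
        exact h)
      (fun d hd => by
        have h := (hCap.devA j k d hd).trans
          (mul_le_mul_of_nonneg_right (le_abs_self C) hd0)
        refine le_trans (le_of_eq ?_) h
        unfold SysSeq.devAt Sys.dev
        have e := hfree d
        unfold SysSeq.freeAt at e
        rw [e]
        refine integral_congr_ae (ae_of_all _ fun z => ?_)
        exact congrArg (fun t => |t - _|) (congrArg logZ (funext fun σ =>
          (ham_atom hN (Q.a j) (Q.w j) s (Q.x j) (Q.B j) k (eta N) d z σ).symm)))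
    have hdev : devObs P s (Q.x j) (Q.B j) (fun z σ => ηN * P.ov z.1 k.succ σ σ) =
        ηN * selfDev P s (Q.x j) (Q.B j) k.succ := by
      rw [selfDev, rmean_one (fun U τ => |P.ov U k.succ τ τ - _|), devObs, ← integral_const_mul]
      simp only [rmean_one (fun U τ => P.ov U k.succ τ τ),
        Vale.Agent.P168.Limit.gav_const_mul, integral_const_mul, ← mul_sub, abs_mul,
        abs_of_pos hηN0]
    rw [hdev] at hfl
    have hnn : 0 ≤ selfDev P s (Q.x j) (Q.B j) k.succ :=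
      integral_nonneg fun z => Finset.sum_nonneg fun σ _ =>
        mul_nonneg (Finset.prod_nonneg fun l _ => gw_nonneg _ _) (abs_nonneg _)
    rw [Real.norm_eq_abs, abs_of_nonneg hnn]
    have hr := rate_le hN (D := |C|) (Or.inr rfl) (abs_nonneg C)
    rw [le_div_iff₀ hh] at hfl
    rw [div_le_iff₀ (by positivity)] at hr
    have hM : |C * (1 + eta N * N * diffStep N ^ 2)| = |C| * (1 + eta N * N * diffStep N ^ 2) := by
      rw [abs_mul, abs_of_pos (show 0 < 1 + eta N * N * diffStep N ^ 2 by positivity)]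
    rw [hM] at hfl
    have h2 : ηN * selfDev P s (Q.x j) (Q.B j) k.succ * diffStep N ≤
        |C₁| * ((1 + |C|) * (10 * (N : ℝ) ^ (-(1 / 16) : ℝ)) * (diffStep N * (eta N * N))) :=
      hfl.trans ((mul_le_mul_of_nonneg_right (le_abs_self C₁) (by positivity)).trans
        (mul_le_mul_of_nonneg_left hr (abs_nonneg C₁)))
    refine le_of_mul_le_mul_left (le_of_le_of_eq ?_ (mul_comm _ _)) (mul_pos hηN0 hh)
    refine le_trans (le_of_eq ?_) (h2.trans (le_of_eq ?_))
    · ring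
    · rw [hηN]; ring

theorem ident_tendsto (hFl : FluctBound C₁) (hStd : Q.Std A) (hCap : Q.Capped C) (n : ℕ)
    (e : Fin (K + 2) → ℕ) (F : (Fin (K + 2) → Fin (n + 1) → Fin (n + 1) → ℝ) → ℝ)
    (hF : Continuous F) :
    Tendsto (fun j =>
      ((n : ℝ) + 1) * Q.mean j (n + 2) (fun R => F (fun g a b => R g a.castSucc b.castSucc) *
          ∏ g, R g 0 (Fin.last (n + 1)) ^ e g) -
        (Q.mean j (n + 1) F * Q.mean j 2 (fun R => ∏ g, R g 0 1 ^ e g) +
          ∑ l : Fin n, Q.mean j (n + 1) (fun R => F R * ∏ g, R g 0 l.succ ^ e g))) atTop (𝓝 0) := by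
  obtain ⟨CF, hCF, hFb⟩ := exists_bound hF
  set i₀ := Encodable.encode e
  set c := coef (K + 2) i₀
  have hc : 0 < c := coef_pos _ _
  have hev : ∀ᶠ j in atTop, i₀ < Q.N j := hStd.size.eventually (eventually_gt_atTop i₀)
  refine squeeze_zero_norm' (hev.mono fun j hj => ?_)
    (show Tendsto (fun j => CF * |C₁| / c ^ 2 * (1 + |C|) * (10 * (Q.N j : ℝ) ^ (-(1 / 16) : ℝ)) +
      CF * (2 * ∑ g, (e g : ℝ) * selfDev (Q.sys j) (scale (Q.N j)) (Q.x j) (Q.B j) g))
        atTop (𝓝 0) by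
      simpa using (tendsto_rate hStd.size (CF * |C₁| / c ^ 2 * (1 + |C|))).add
        (((tendsto_finset_sum Finset.univ fun g _ =>
          (self_tendsto hFl hStd hCap g).const_mul (e g : ℝ)).const_mul 2).const_mul CF))
  set N := Q.N j with hNdef
  have hN : 0 < N := hStd.pos j
  have hN0 : (0 : ℝ) < N := Nat.cast_pos.2 hN
  set P := Q.sys j with hP
  set s := scale N
  have hs : 0 < s := Real.rpow_pos_of_pos hN0 _
  have hh : 0 < diffStep N := Real.rpow_pos_of_pos hN0 _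
  set i : Fin N := ⟨i₀, hj⟩ with hi
  have hme : mexp (K + 2) i.val = e := mexp_encode e
  obtain ⟨hd0, -⟩ := devRate_le hN
  have hid := identity_le (P := P) (s := s) (x := Q.x j) (B := Q.B j) le_rfl hs i
    (hCap.coord j i).1 n (F := fun U σ => F (P.ovs U σ)) hCF
    (fun σ => hF.measurable.comp (measurable_pi_lambda _ fun g => measurable_pi_lambda _ fun a =>
      measurable_pi_lambda _ fun b => measurable_ov P g (σ a) (σ b)))
    (fun U σ => hFb _ fun g a b => abs_ov_le P le_rfl U g _ _)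
  rw [hme] at hid
  have hfree : ∀ d, Q.freeAt j (Q.a j) (Function.update (Q.x j) i (Q.x j i + d)) =
      ∫ z, logZ (fun σ => P.ham s (Q.x j) (Q.B j) z σ + d * obsX P s i z.1 z.2.1 σ)
        ∂dzLaw (K + 2) N (Q.B j) := fun d =>
    integral_congr_ae (ae_of_all _ fun z => congrArg logZ
      (funext fun σ => ham_update P s (Q.x j) (Q.B j) i d z σ))
  have hfl := fluct_apply hFl (P := P) (s := s) (x := Q.x j) (B := Q.B j) le_rfl
    (O := fun z σ => obsX P s i z.1 z.2.1 σ) (fun σ => by simp only [obsX]; fun_prop)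
    (K₀ := 0) (K₁ := |s * coef (K + 2) i.val|) le_rfl (abs_nonneg _)
    (fun z σ => by rw [zero_add]; exact abs_obsX_le P le_rfl s i _ _ σ)
    (h := diffStep N) (M := C * (1 + s ^ 2 * diffStep N ^ 2)) (φ := |C| * devRate N)
    hh (mul_nonneg (abs_nonneg _) hd0)
    (by
      have h := hCap.capX j i
      rw [hfree, sub_eq_add_neg (Q.x j i), hfree] at h
      exact h)
    (fun d hd => by
      have h := (hCap.devX j i d hd).trans (mul_le_mul_of_nonneg_right (le_abs_self C) hd0)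
      refine le_trans (le_of_eq ?_) h
      unfold SysSeq.devAt Sys.dev
      have e' := hfree d
      unfold SysSeq.freeAt at e'
      rw [e']
      refine integral_congr_ae (ae_of_all _ fun z => ?_)
      exact congrArg (fun t => |t - _|) (congrArg logZ (funext fun σ =>
        (ham_update P s (Q.x j) (Q.B j) i d z σ).symm)))
  have hs2 : s ^ 2 = (N : ℝ) ^ (3 / 4 : ℝ) := by
    show ((N : ℝ) ^ (3 / 8 : ℝ)) ^ 2 = _
    rw [← Real.rpow_natCast, ← Real.rpow_mul hN0.le]; norm_num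
  have hr := rate_le hN (D := |C|) (Or.inl hs2) (abs_nonneg C)
  rw [abs_mul, abs_of_pos (show 0 < 1 + s ^ 2 * diffStep N ^ 2 by positivity)] at hfl
  rw [Real.norm_eq_abs]
  refine hid.trans (add_le_add ?_ le_rfl)
  calc CF * devObs P s (Q.x j) (Q.B j) (fun z σ => obsX P s i z.1 z.2.1 σ) / (s ^ 2 * c ^ 2)
      ≤ CF * (|C₁| * (1 + |C| * (1 + s ^ 2 * diffStep N ^ 2) + |C| * devRate N) / diffStep N) /
          (s ^ 2 * c ^ 2) := by
        gcongr
        refine hfl.trans ?_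
        gcongr
        exact le_abs_self _
    _ = CF * |C₁| / c ^ 2 * ((1 + |C| * (1 + s ^ 2 * diffStep N ^ 2) + |C| * devRate N) /
          (diffStep N * s ^ 2)) := by field_simp
    _ ≤ CF * |C₁| / c ^ 2 * ((1 + |C|) * (10 * (N : ℝ) ^ (-(1 / 16) : ℝ))) :=
        mul_le_mul_of_nonneg_left hr (by positivity)
    _ = _ := by ring

/-- Caps and concentration give the identities. -/
theorem gg (hFl : FluctStmt) : GGStmt := by
  obtain ⟨C₁, hC₁⟩ := hFl
  intro K A Q C hStd hCap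
  exact ⟨fun n e F hF => ident_tendsto hC₁ hStd hCap n e F hF,
    fun g => self_tendsto hC₁ hStd hCap g⟩

end Vale.Agent.P166.Haar2.GG
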