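import Vale.Agent.P166.Haar2.Statements
import Vale.Agent.P157.Parisi.Perturb.Identity

/-!
Elementary facts about perturbed systems in Haar position: bounds, measurability, the product rule
for features and the dependence on the parameters.
-/

noncomputable section

open MeasureTheory ProbabilityTheory
open scoped BigOperators

namespace Vale.Agent.P166.Haar2.GG

open Vale.Agent.P157 (gam)
open Vale.Agent.P157.Parisi (Cube scale)
open Vale.Agent.P168.Limit (gw logZ gav rav abs_rav_le)

variable {N G L : ℕ} (P : Sys N G) (s : ℝ) (x : Fin L → ℝ) (B : RBase N)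

lemma sum_rot_sq (U : OG N) (σ : Cube N) : ∑ i, rot U σ i ^ 2 = N := by
  have h := act_dot U (spin σ) (spin σ)
  simp only [dotProduct, ← pow_two] at h
  simp only [rot]
  rw [h]
  have e : ∀ i, spin σ i ^ 2 = 1 := fun i => by unfold spin; split_ifs <;> norm_num
  simp [e]

lemma abs_rot_le (U : OG N) (σ : Cube N) (i : Fin N) : |rot U σ i| ≤ Real.sqrt N := by
  refine Real.abs_le_sqrt ?_
  rw [← sum_rot_sq U σ]
  exact Finset.single_le_sum (f := fun i => rot U σ i ^ 2) (fun i _ => sq_nonneg _)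
    (Finset.mem_univ i)

lemma abs_ov_le (hν : (N : ℝ) ≤ P.ν) (U : OG N) (g : Fin G) (σ τ : Cube N) :
    |P.ov U g σ τ| ≤ 1 := by
  have hν0 : 0 ≤ P.ν := N.cast_nonneg.trans hν
  rw [Sys.ov, abs_div, abs_of_nonneg hν0]
  refine div_le_one_of_le₀ (le_trans ?_ hν) hν0
  have h1 : |∑ i ∈ P.S g, rot U σ i * rot U τ i| ≤
      ∑ i, (rot U σ i ^ 2 + rot U τ i ^ 2) / 2 := by
    refine (Finset.abs_sum_le_sum_abs _ _).trans (le_trans
      (Finset.sum_le_sum_of_subset_of_nonneg (Finset.subset_univ _) fun i _ _ => abs_nonneg _)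
      (Finset.sum_le_sum fun i _ => ?_))
    rw [abs_mul]
    nlinarith [sq_nonneg (|rot U σ i| - |rot U τ i|), sq_abs (rot U σ i), sq_abs (rot U τ i)]
  rw [← Finset.sum_div, Finset.sum_add_distrib, sum_rot_sq, sum_rot_sq] at h1
  linarith

lemma abs_feat_le (hν : (N : ℝ) ≤ P.ν) (U : OG N) (σ : Cube N) (c : PIdx G N L) :
    |P.feat U σ c| ≤ 1 := by
  rw [Sys.feat, Finset.abs_prod]
  refine Finset.prod_le_one (fun _ _ => abs_nonneg _) fun p _ => ?_
  split_ifs
  · rw [abs_div, abs_of_nonneg (Real.sqrt_nonneg _)]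
    exact div_le_one_of_le₀ ((abs_rot_le U σ _).trans (Real.sqrt_le_sqrt hν)) (Real.sqrt_nonneg _)
  · simp

@[fun_prop]
lemma measurable_rot (σ : Cube N) (i : Fin N) : Measurable fun U : OG N => rot U σ i := by
  refine Continuous.measurable ?_
  simp only [rot, act, Matrix.mulVec, dotProduct]
  refine continuous_finset_sum _ fun k _ => ?_
  have h : Continuous fun U : OG N => (U : Matrix (Fin N) (Fin N) ℝ) i k :=
    (show Continuous fun A : Matrix (Fin N) (Fin N) ℝ => A i k from
      (continuous_apply k).comp (continuous_apply i)).comp continuous_subtype_val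
  exact h.mul continuous_const

@[fun_prop]
lemma measurable_ov (g : Fin G) (σ τ : Cube N) : Measurable fun U : OG N => P.ov U g σ τ := by
  simp only [Sys.ov]; fun_prop

@[fun_prop]
lemma measurable_feat (σ : Cube N) (c : PIdx G N L) :
    Measurable fun U : OG N => P.feat U σ c := by
  simp only [Sys.feat]
  refine Finset.measurable_prod _ fun p _ => ?_
  split_ifs
  · fun_prop
  · fun_prop

@[fun_prop]
lemma measurable_ham (σ : Cube N) : Measurable fun z : Dz G L B => P.ham s x B z σ := by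
  have := B.meas σ
  simp only [Sys.ham, Sys.ham0, Sys.pert]
  fun_prop

lemma measurable_gw (σ : Cube N) : Measurable fun z : Dz G L B => gw (P.ham s x B z) σ :=
  (measurable_ham P s x B σ).exp.div
    (Finset.measurable_sum _ fun τ _ => (measurable_ham P s x B τ).exp)

lemma measurable_rav {m : ℕ} {F : Dz G L B → (Fin m → Cube N) → ℝ}
    (hF : ∀ σ, Measurable fun z => F z σ) :
    Measurable fun z : Dz G L B => rav m (P.ham s x B z) (F z) :=
  Finset.measurable_sum _ fun σ _ =>
    (Finset.measurable_prod _ fun l _ => measurable_gw P s x B (σ l)).mul (hF σ)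

instance isProbabilityMeasure_dzLaw : IsProbabilityMeasure (dzLaw G L B) := by
  unfold dzLaw; infer_instance

/-- The mean of a function of the rotation and of replicas. -/
def rmean (m : ℕ) (F : OG N → (Fin m → Cube N) → ℝ) : ℝ :=
  ∫ z, rav m (P.ham s x B z) (F z.1) ∂dzLaw G L B

variable {P s x B}

lemma integrable_rav {m : ℕ} {F : OG N → (Fin m → Cube N) → ℝ} {C : ℝ}
    (hm : ∀ σ, Measurable fun U => F U σ) (hF : ∀ U σ, |F U σ| ≤ C) :
    Integrable (fun z : Dz G L B => rav m (P.ham s x B z) (F z.1)) (dzLaw G L B) :=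
  Integrable.of_bound
    (measurable_rav P s x B fun σ => (hm σ).comp measurable_fst).aestronglyMeasurable C
    (ae_of_all _ fun z => abs_rav_le m _ _ (hF z.1))

lemma abs_rmean_le {m : ℕ} {F : OG N → (Fin m → Cube N) → ℝ} {C : ℝ} (hF : ∀ U σ, |F U σ| ≤ C) :
    |rmean P s x B m F| ≤ C := by
  rw [← Real.norm_eq_abs]
  exact (norm_integral_le_of_norm_le_const (C := C)
    (ae_of_all _ fun z => abs_rav_le m _ _ (hF z.1))).trans (le_of_eq (by simp))

lemma rmean_const_mul {m : ℕ} (c : ℝ) (F : OG N → (Fin m → Cube N) → ℝ) :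
    rmean P s x B m (fun U σ => c * F U σ) = c * rmean P s x B m F := by
  simp only [rmean, Vale.Agent.P168.Limit.rav_const_mul, integral_const_mul]

lemma rmean_sum {m : ℕ} {α : Type*} (S : Finset α) {F : α → OG N → (Fin m → Cube N) → ℝ}
    (hm : ∀ a σ, Measurable fun U => F a U σ) {C : ℝ} (hF : ∀ a U σ, |F a U σ| ≤ C) :
    rmean P s x B m (fun U σ => ∑ a ∈ S, F a U σ) = ∑ a ∈ S, rmean P s x B m (F a) := by
  simp only [rmean, Vale.Agent.P168.Limit.rav_sum]
  exact integral_finset_sum _ fun a _ => integrable_rav (hm a) (hF a)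

variable (P)

/-- The features of one monomial multiply to the monomial in the block overlaps. -/
lemma sum_feat_mul (hν : (N : ℝ) ≤ P.ν) (U : OG N) (σ τ : Cube N) (i : Fin L) :
    ∑ v : Word G i.val → Fin N, P.feat U σ ⟨i, v⟩ * P.feat U τ ⟨i, v⟩ =
      ∏ g, P.ov U g σ τ ^ mexp G i.val g := by
  have hν0 : 0 ≤ P.ν := N.cast_nonneg.trans hν
  simp only [Sys.feat, ← Finset.prod_mul_distrib]
  rw [← Fintype.prod_sum (κ := fun _ : Word G i.val => Fin N) (fun p j =>
    (if j ∈ P.S p.1 then rot U σ j / Real.sqrt P.ν else 0) *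
      (if j ∈ P.S p.1 then rot U τ j / Real.sqrt P.ν else 0))]
  have e : ∀ p : Word G i.val, (∑ j : Fin N, (if j ∈ P.S p.1 then rot U σ j / Real.sqrt P.ν else 0) *
      (if j ∈ P.S p.1 then rot U τ j / Real.sqrt P.ν else 0)) = P.ov U p.1 σ τ := by
    intro p
    rw [Sys.ov, Finset.sum_div, ← Finset.sum_filter_add_sum_filter_not Finset.univ (· ∈ P.S p.1)]
    rw [Finset.sum_eq_zero (s := Finset.univ.filter fun j => ¬ j ∈ P.S p.1) fun j hj => by
      rw [if_neg (Finset.mem_filter.1 hj).2, zero_mul], add_zero,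
      show (Finset.univ.filter fun j => j ∈ P.S p.1) = P.S p.1 by ext; simp]
    refine Finset.sum_congr rfl fun j hj => ?_
    rw [if_pos hj, if_pos hj, div_mul_div_comm, Real.mul_self_sqrt hν0]
  rw [Fintype.prod_congr _ _ e, Fintype.prod_sigma]
  simp

/-- The derivative of the energy in the strength of one monomial. -/
def obsX (s : ℝ) (i : Fin L) (U : OG N) (J : PIdx G N L → ℝ) (σ : Cube N) : ℝ :=
  s * coef G i.val * ∑ v : Word G i.val → Fin N, J ⟨i, v⟩ * P.feat U σ ⟨i, v⟩

lemma pert_eq (s : ℝ) (x : Fin L → ℝ) (U : OG N) (J : PIdx G N L → ℝ) (σ : Cube N) :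
    P.pert s x U J σ = ∑ i, x i * obsX P s i U J σ := by
  rw [Sys.pert, Fintype.sum_sigma]
  simp only [obsX, Finset.mul_sum]
  exact Finset.sum_congr rfl fun i _ => Finset.sum_congr rfl fun v _ => by ring

lemma ham_update (s : ℝ) (x : Fin L → ℝ) (B : RBase N) (i : Fin L) (d : ℝ) (z : Dz G L B)
    (σ : Cube N) :
    P.ham s (Function.update x i (x i + d)) B z σ =
      P.ham s x B z σ + d * obsX P s i z.1 z.2.1 σ := by
  simp only [Sys.ham, Sys.ham0, pert_eq]
  have e : ∑ k, Function.update x i (x i + d) k * obsX P s k z.1 z.2.1 σ =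
      (∑ k, x k * obsX P s k z.1 z.2.1 σ) + d * obsX P s i z.1 z.2.1 σ := by
    rw [← Finset.add_sum_erase _ _ (Finset.mem_univ i), Function.update_self,
      ← Finset.add_sum_erase _ (fun k => x k * _) (Finset.mem_univ i),
      Finset.sum_congr rfl fun k hk =>
        show Function.update x i (x i + d) k * obsX P s k z.1 z.2.1 σ =
            x k * obsX P s k z.1 z.2.1 σ by
          rw [Function.update_of_ne (Finset.ne_of_mem_erase hk)]]
    ring
  rw [e]; ring

/-- A bound on the absolute values of the disorder. -/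
def absJ (J : PIdx G N L → ℝ) : ℝ := ∑ c, |J c|

lemma abs_obsX_le (hν : (N : ℝ) ≤ P.ν) (s : ℝ) (i : Fin L) (U : OG N) (J : PIdx G N L → ℝ)
    (σ : Cube N) : |obsX P s i U J σ| ≤ |s * coef G i.val| * absJ J := by
  rw [obsX, abs_mul]
  refine mul_le_mul_of_nonneg_left ((Finset.abs_sum_le_sum_abs _ _).trans ?_) (abs_nonneg _)
  calc ∑ v : Word G i.val → Fin N, |J ⟨i, v⟩ * P.feat U σ ⟨i, v⟩|
      ≤ ∑ v : Word G i.val → Fin N, |J ⟨i, v⟩| := Finset.sum_le_sum fun v _ => by
        rw [abs_mul]; exact mul_le_of_le_one_right (abs_nonneg _) (abs_feat_le P hν U σ _)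
    _ ≤ ∑ j : Fin L, ∑ v : Word G j.val → Fin N, |J ⟨j, v⟩| :=
        Finset.single_le_sum (f := fun j : Fin L => ∑ v : Word G j.val → Fin N, |J ⟨j, v⟩|)
          (fun j _ => Finset.sum_nonneg fun v _ => abs_nonneg _) (Finset.mem_univ i)
    _ = absJ J := by rw [absJ, Fintype.sum_sigma]

lemma abs_ham_le (hν : (N : ℝ) ≤ P.ν) (s : ℝ) (x : Fin L → ℝ) (B : RBase N) (z : Dz G L B)
    (σ : Cube N) : |P.ham s x B z σ| ≤ (B.bd + N / 2 * ∑ i, |P.lam i|) +
      (∑ i, |x i| * |s * coef G i.val|) * absJ z.2.1 := by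
  simp only [Sys.ham, Sys.ham0, pert_eq]
  refine (abs_add_le _ _).trans ?_
  rw [add_assoc]
  refine add_le_add (B.le_bd _ _) ((abs_add_le _ _).trans (add_le_add ?_ ?_))
  · rw [abs_mul, abs_of_pos (by norm_num : (0 : ℝ) < 1 / 2), Finset.mul_sum (a := (N : ℝ) / 2)]
    refine le_trans (mul_le_mul_of_nonneg_left (Finset.abs_sum_le_sum_abs _ _) (by norm_num)) ?_
    rw [Finset.mul_sum]
    refine Finset.sum_le_sum fun i _ => ?_
    have h : rot z.1 σ i ^ 2 ≤ N := by
      rw [← sum_rot_sq z.1 σ]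
      exact Finset.single_le_sum (f := fun i => rot z.1 σ i ^ 2) (fun i _ => sq_nonneg _)
        (Finset.mem_univ i)
    rw [abs_mul, abs_of_nonneg (sq_nonneg (rot z.1 σ i))]
    nlinarith [abs_nonneg (P.lam i)]
  · rw [Finset.sum_mul]
    refine (Finset.abs_sum_le_sum_abs _ _).trans (Finset.sum_le_sum fun i _ => ?_)
    rw [abs_mul, mul_assoc]
    exact mul_le_mul_of_nonneg_left (abs_obsX_le P hν s i _ _ σ) (abs_nonneg _)

lemma integrable_absJ (B : RBase N) :
    Integrable (fun z : Dz G L B => absJ z.2.1) (dzLaw G L B) :=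
  integrable_finset_sum _ fun c _ =>
    ((Vale.Agent.P168.Toolkit.integrable_eval_gaussPi c).abs.comp_fst B.law).comp_snd (orthHaar N)

lemma coef_pos (G i : ℕ) : 0 < coef G i := by unfold coef; positivity

end Vale.Agent.P166.Haar2.GG
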