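import Vale.Agent.P166.Haar2.GG.Basic

/-!
Gaussian integration by parts in the perturbation, with the rotation and the base fixed.
-/

noncomputable section

open MeasureTheory ProbabilityTheory
open scoped BigOperators

namespace Vale.Agent.P166.Haar2.GG

open Vale.Agent.P157 (gam)
open Vale.Agent.P157.Parisi (Cube scale)
open Vale.Agent.P168.Limit (gw logZ gav rav abs_rav_le rav_const_mul rav_sum)
open Vale.Agent.P168.Limit.SelfAvg (field)

variable {N G L : ℕ} (P : Sys N G) (s : ℝ) (x : Fin L → ℝ) (B : RBase N)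

lemma integrable_coord (c : PIdx G N L) :
    Integrable (fun z : Dz G L B => z.2.1 c) (dzLaw G L B) :=
  ((Vale.Agent.P168.Toolkit.integrable_eval_gaussPi c).comp_fst B.law).comp_snd (orthHaar N)

lemma integrable_coord_rav (c : PIdx G N L) {m : ℕ} {F : OG N → (Fin m → Cube N) → ℝ} {C : ℝ}
    (hm : ∀ σ, Measurable fun U => F U σ) (hF : ∀ U σ, |F U σ| ≤ C) :
    Integrable (fun z : Dz G L B => z.2.1 c * rav m (P.ham s x B z) (F z.1)) (dzLaw G L B) :=
  (integrable_coord B c).mul_bdd (c := C)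
    (measurable_rav P s x B fun σ => (hm σ).comp measurable_fst).aestronglyMeasurable
    (ae_of_all _ fun z => abs_rav_le m _ _ (hF z.1))

variable {P s x B}

/-- Two integrals over the disorder agree when they do so after integrating the couplings. -/
lemma integral_eq {F F' : Dz G L B → ℝ} (hF : Integrable F (dzLaw G L B))
    (hF' : Integrable F' (dzLaw G L B))
    (h : ∀ U ω, ∫ J, F (U, J, ω) ∂gam (PIdx G N L) = ∫ J, F' (U, J, ω) ∂gam (PIdx G N L)) :
    ∫ z, F z ∂dzLaw G L B = ∫ z, F' z ∂dzLaw G L B := by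
  unfold dzLaw at hF hF' ⊢
  rw [integral_prod _ hF, integral_prod _ hF']
  refine integral_congr_ae ?_
  filter_upwards [hF.prod_right_ae, hF'.prod_right_ae] with U h1 h2
  rw [integral_prod_symm _ h1, integral_prod_symm _ h2]
  exact integral_congr_ae (ae_of_all _ fun ω => h U ω)

/-- Integration by parts in one coupling. -/
theorem ibp_coord (hν : (N : ℝ) ≤ P.ν) (c : PIdx G N L) {m : ℕ}
    {F : OG N → (Fin m → Cube N) → ℝ} {C : ℝ}
    (hm : ∀ σ, Measurable fun U => F U σ) (hF : ∀ U σ, |F U σ| ≤ C) :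
    ∫ z, z.2.1 c * rav m (P.ham s x B z) (F z.1) ∂dzLaw G L B =
      s * x c.1 * coef G c.1.val *
        ((∑ q : Fin m, rmean P s x B m fun U σ => F U σ * P.feat U (σ q) c) -
          (m : ℝ) * rmean P s x B (m + 1) fun U σ =>
            F U (fun l => σ l.castSucc) * P.feat U (σ (Fin.last m)) c) := by
  have hb : ∀ (k : ℕ) (a : (Fin k → Cube N) → Fin m → Cube N) (b : (Fin k → Cube N) → Cube N) U σ,
      |F U (a σ) * P.feat U (b σ) c| ≤ C := fun k a b U σ => by
    rw [abs_mul]
    exact (mul_le_of_le_one_right (abs_nonneg _) (abs_feat_le P hν U _ c)).trans (hF _ _)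
  have i1 := fun q : Fin m => integrable_rav (P := P) (s := s) (x := x) (B := B)
    (F := fun U σ => F U σ * P.feat U (σ q) c)
    (fun σ => (hm σ).mul (measurable_feat P _ c)) (hb m (fun σ => σ) fun σ => σ q)
  have i2 := integrable_rav (P := P) (s := s) (x := x) (B := B)
    (F := fun U (σ : Fin (m + 1) → Cube N) =>
      F U (fun l => σ l.castSucc) * P.feat U (σ (Fin.last m)) c)
    (fun σ => (hm _).mul (measurable_feat P _ c))
    (hb (m + 1) (fun σ l => σ l.castSucc) fun σ => σ (Fin.last m))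
  simp only [rmean]
  rw [← integral_finset_sum _ fun q _ => i1 q, ← integral_const_mul (m : ℝ),
    ← integral_sub (integrable_finset_sum _ fun q _ => i1 q) (i2.const_mul _),
    ← integral_const_mul (s * x c.1 * coef G c.1.val)]
  refine integral_eq (integrable_coord_rav P s x B c hm hF)
    (((integrable_finset_sum _ fun q _ => i1 q).sub (i2.const_mul _)).const_mul _) fun U ω => ?_
  have e : ∀ J, P.ham s x B (U, J, ω) = fun σ =>
      (B.lw ω σ + 1 / 2 * ∑ i, P.lam i * rot U σ i ^ 2) +
        field (fun (τ : Cube N) (c : PIdx G N L) =>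
          s * x c.1 * coef G c.1.val * P.feat U τ c) J σ := fun J => funext fun σ => by
    simp only [Sys.ham, Sys.ham0, Sys.pert, field, add_assoc]
    congr 2
    exact Finset.sum_congr rfl fun c _ => by ring
  simp only [e]
  refine (Vale.Agent.P157.Parisi.Perturb.gauss_rav_ibp
    (fun σ => B.lw ω σ + 1 / 2 * ∑ i, P.lam i * rot U σ i ^ 2) _ c m (F U)).trans ?_
  refine integral_congr_ae (ae_of_all _ fun J => ?_)
  simp only [mul_left_comm _ (s * x c.1 * coef G c.1.val), rav_const_mul, ← Finset.mul_sum]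
  ring

/-- The mean of a bounded function of replicas times the observable of replica `0`. -/
theorem ibp_obs (hν : (N : ℝ) ≤ P.ν) (i : Fin L) (n : ℕ)
    {F : OG N → (Fin (n + 1) → Cube N) → ℝ} {C : ℝ}
    (hm : ∀ σ, Measurable fun U => F U σ) (hF : ∀ U σ, |F U σ| ≤ C) :
    ∫ z, rav (n + 1) (P.ham s x B z) (fun σ => F z.1 σ * obsX P s i z.1 z.2.1 (σ 0))
        ∂dzLaw G L B =
      s ^ 2 * coef G i.val ^ 2 * x i *
        ((rmean P s x B (n + 1) (fun U σ => F U σ * ∏ g, P.ov U g (σ 0) (σ 0) ^ mexp G i.val g) +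
          ∑ l : Fin n, rmean P s x B (n + 1)
            fun U σ => F U σ * ∏ g, P.ov U g (σ 0) (σ l.succ) ^ mexp G i.val g) -
          ((n : ℝ) + 1) * rmean P s x B (n + 2) fun U σ =>
            F U (fun l => σ l.castSucc) *
              ∏ g, P.ov U g (σ 0) (σ (Fin.last (n + 1))) ^ mexp G i.val g) := by
  have hff : ∀ (v : Word G i.val → Fin N) σ, Measurable fun U => F U σ * P.feat U (σ 0) ⟨i, v⟩ :=
    fun v σ => (hm σ).mul (measurable_feat P _ _)
  have hfb : ∀ (v : Word G i.val → Fin N) U σ, |F U σ * P.feat U (σ 0) ⟨i, v⟩| ≤ C := fun v U σ => by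
    rw [abs_mul]
    exact (mul_le_of_le_one_right (abs_nonneg _) (abs_feat_le P hν U _ _)).trans (hF _ _)
  have e : ∀ z : Dz G L B,
      rav (n + 1) (P.ham s x B z) (fun σ => F z.1 σ * obsX P s i z.1 z.2.1 (σ 0)) =
        ∑ v : Word G i.val → Fin N, s * coef G i.val * (z.2.1 ⟨i, v⟩ *
          rav (n + 1) (P.ham s x B z) (fun σ => F z.1 σ * P.feat z.1 (σ 0) ⟨i, v⟩)) := by
    intro z
    simp only [← rav_const_mul, ← rav_sum]
    refine congrArg _ (funext fun σ => ?_)
    simp only [obsX, Finset.mul_sum]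
    exact Finset.sum_congr rfl fun v _ => by ring
  simp only [e]
  rw [integral_finset_sum _ fun v _ =>
    (integrable_coord_rav P s x B _ (hff v) (hfb v)).const_mul _]
  simp only [integral_const_mul, ibp_coord hν _ (hff _) (hfb _)]
  have hS : ∀ (k : ℕ) (a : (Fin k → Cube N) → Fin (n + 1) → Cube N)
      (b : (Fin k → Cube N) → Cube N),
      ∑ v : Word G i.val → Fin N, rmean P s x B k
          (fun U σ => F U (a σ) * P.feat U (a σ 0) ⟨i, v⟩ * P.feat U (b σ) ⟨i, v⟩) =
        rmean P s x B k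
          (fun U σ => F U (a σ) * ∏ g, P.ov U g (a σ 0) (b σ) ^ mexp G i.val g) := by
    intro k a b
    rw [← rmean_sum _ (F := fun v U σ =>
        F U (a σ) * P.feat U (a σ 0) ⟨i, v⟩ * P.feat U (b σ) ⟨i, v⟩)
      (fun v σ => ((hm _).mul (measurable_feat P _ _)).mul (measurable_feat P _ _))
      (C := C) fun v U σ => by
        rw [abs_mul]
        exact (mul_le_of_le_one_right (abs_nonneg _) (abs_feat_le P hν U _ _)).trans (hfb v U (a σ))]
    refine congrArg _ (funext fun U => funext fun σ => ?_)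
    simp only [mul_assoc (F U (a σ)), ← Finset.mul_sum, sum_feat_mul P hν]
  rw [← Finset.mul_sum, ← Finset.mul_sum, Finset.sum_sub_distrib, ← Finset.mul_sum,
    Finset.sum_comm, Fin.sum_univ_succ, hS (n + 1) (fun σ => σ) fun σ => σ 0,
    Finset.sum_congr rfl fun l _ => hS (n + 1) (fun σ => σ) fun σ => σ (Fin.succ l),
    hS (n + 1 + 1) (fun σ l => σ l.castSucc) fun σ => σ (Fin.last (n + 1))]
  simp only [Fin.castSucc_zero, Nat.cast_add, Nat.cast_one]
  ring

/-- The mean of the observable of one monomial. -/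
theorem mean_obs (hν : (N : ℝ) ≤ P.ν) (i : Fin L) :
    ∫ z, gav (P.ham s x B z) (obsX P s i z.1 z.2.1) ∂dzLaw G L B =
      s ^ 2 * coef G i.val ^ 2 * x i *
        (rmean P s x B 1 (fun U σ => ∏ g, P.ov U g (σ 0) (σ 0) ^ mexp G i.val g) -
          rmean P s x B 2 fun U σ => ∏ g, P.ov U g (σ 0) (σ 1) ^ mexp G i.val g) := by
  have h := ibp_obs (P := P) (s := s) (x := x) (B := B) hν i 0
    (F := fun _ _ => (1 : ℝ)) (C := 1) (fun _ => measurable_const) (fun _ _ => by simp)
  simp only [one_mul, Vale.Agent.P157.Parisi.Perturb.rav_first] at h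
  rw [h, show (Fin.last (0 + 1) : Fin 2) = 1 from rfl]
  simp

end Vale.Agent.P166.Haar2.GG
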